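import Vale.Agent.P330.H657.RS

/-!
# Recursion for the normalised subspace polynomials; powers of an element
-/

namespace Vale.Agent.P330.H657

open Finset Polynomial Vale.Agent.P330.H16

variable {κ : ℕ} {F : Type} [Field F]

theorem rsys_s [CharP F 2] (b : Fin κ → F) (hb : Indep b) : (rsys b hb).s = ss b := rfl

theorem rsys_RS [CharP F 2] (b : Fin κ → F) (hb : Indep b) : (rsys b hb).RS = RSd b := rfl

theorem ss_zero (b : Fin κ → F) (x : V2 κ) : ss b 0 x = pX b x * (bb b 0)⁻¹ := by
  simp [ss, sp_zero]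

/-- The recursion of the normalised subspace polynomials. -/
theorem ss_succ [CharP F 2] {b : Fin κ → F} (hb : Indep b) {j : ℕ} (hj : j + 1 < κ) (x : V2 κ) :
    ss b (j + 1) x = (ss b j x ^ 2 + ss b j x) /
      (ss b j (e κ (j + 1)) ^ 2 + ss b j (e κ (j + 1))) := by
  have hc : (sp b j).eval (bb b j) ≠ 0 := sp_ne hb (by omega)
  have h1 : bb b (j + 1) = pX b (e κ (j + 1)) := by
    rw [pX_e b hj]
    simp [bb, hj]
  have key : ∀ y : V2 κ, (sp b (j + 1)).eval (pX b y) =
      (sp b j).eval (bb b j) ^ 2 * (ss b j y ^ 2 + ss b j y) := by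
    intro y
    rw [sp_succ_eval]
    unfold ss
    field_simp
  have h2 : ss b (j + 1) x = (sp b (j + 1)).eval (pX b x) / (sp b (j + 1)).eval (bb b (j + 1)) := by
    rw [ss, div_eq_mul_inv]
  rw [h2, h1, key, key, mul_div_mul_left _ _ (pow_ne_zero 2 hc)]

/-- Numbers with the same recursion are the values at the unit vectors. -/
theorem ss_e [CharP F 2] {b : Fin κ → F} (hb : Indep b) (g : ℕ → ℕ → F)
    (h0 : ∀ (i : ℕ) (hi : i < κ), g 0 i = b ⟨i, hi⟩) (h01 : g 0 0 = 1)
    (hs : ∀ j i, g (j + 1) i = (g j i ^ 2 + g j i) / (g j (j + 1) ^ 2 + g j (j + 1)))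
    {j i : ℕ} (hj : j < κ) (hi : i < κ) : ss b j (e κ i) = g j i := by
  induction j generalizing i with
  | zero =>
    have h1 : bb b 0 = 1 := by
      simp only [bb, dif_pos hj]
      rw [← h0 0 hj, h01]
    rw [ss_zero, pX_e b hi, h1, inv_one, mul_one, h0 i hi]
  | succ j ih => rw [ss_succ hb hj, ih (by omega) hi, ih (by omega) hj, hs]

theorem c2_eq [Algebra (ZMod 2) F] (a : ZMod 2) : c2 F a = algebraMap (ZMod 2) F a := by
  rcases zmod2_cases a with rfl | rfl <;> simp

/-- The powers of an element which is not a root of a polynomial of small degree over `ZMod 2`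
are independent. -/
theorem indep_pow [Algebra (ZMod 2) F] (θ : F)
    (h : ∀ f : (ZMod 2)[X], f ≠ 0 → f.natDegree < κ → aeval θ f ≠ 0) :
    Indep (fun i : Fin κ => θ ^ (i : ℕ)) := by
  intro x hx
  by_contra hne
  set f : (ZMod 2)[X] := ∑ j : Fin κ, C (x j) * Polynomial.X ^ (j : ℕ) with hf
  have hκ : 0 < κ := by
    rcases Nat.eq_zero_or_pos κ with rfl | h1
    · exact absurd (Subsingleton.elim x 0) hne
    · exact h1
  have hcoef : ∀ i : Fin κ, f.coeff (i : ℕ) = x i := by
    intro i
    rw [hf, finsetSum_coeff, Finset.sum_eq_single i]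
    · simp
    · intro j _ hj
      have : (i : ℕ) ≠ (j : ℕ) := fun h => hj (Fin.ext h.symm)
      simp [coeff_C_mul, coeff_X_pow, this]
    · simp
  have h1 : f ≠ 0 := by
    intro h0
    apply hne
    funext i
    rw [← hcoef i, h0]
    simp
  have h2 : f.natDegree < κ := by
    have : f.natDegree ≤ κ - 1 := by
      rw [hf]
      refine natDegree_sum_le_of_forall_le _ _ fun j _ => ?_
      refine (natDegree_C_mul_X_pow_le _ _).trans ?_
      have := j.2
      omega
    omega
  refine h f h1 h2 ?_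
  rw [← hx, hf, map_sum]
  unfold pX
  refine Finset.sum_congr rfl fun j _ => ?_
  rw [map_mul, aeval_C, map_pow, aeval_X, c2_eq]

end Vale.Agent.P330.H657
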