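import Vale.Agent.P330.H16.MDefs
import Mathlib.Algebra.Polynomial.Roots
import Mathlib.RingTheory.Polynomial.DegreeLT
import Mathlib.Algebra.CharP.Two

/-!
# Subspace polynomials and Reed-Solomon spaces

`rsys b hb : RSys κ F` for a field `F` of characteristic 2 and `b : Fin κ → F` independent over
`ZMod 2`.  The point `x` is `X b x = ∑ x_j b_j`.
-/

namespace Vale.Agent.P330.H657

open Finset Polynomial Vale.Agent.P330.H16

variable {κ : ℕ} {F : Type} [Field F]

/-- `0 ↦ 0`, `1 ↦ 1` -/
def c2 (F : Type) [Field F] (a : ZMod 2) : F := if a = 1 then 1 else 0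

theorem zmod2_cases (a : ZMod 2) : a = 0 ∨ a = 1 := by
  fin_cases a
  · exact Or.inl rfl
  · exact Or.inr rfl

@[simp] theorem c2_zero : c2 F 0 = 0 := by
  unfold c2
  rw [if_neg]
  decide

@[simp] theorem c2_one : c2 F 1 = 1 := by
  unfold c2
  rw [if_pos rfl]

theorem c2_add [CharP F 2] (a b : ZMod 2) : c2 F (a + b) = c2 F a + c2 F b := by
  rcases zmod2_cases a with rfl | rfl <;> rcases zmod2_cases b with rfl | rfl
  · simp
  · simp
  · simp
  · rw [show (1 + 1 : ZMod 2) = 0 from rfl, c2_zero, c2_one, CharTwo.add_self_eq_zero]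

/-- the element of `F` that belongs to the point `x` -/
def pX (b : Fin κ → F) (x : V2 κ) : F := ∑ j, c2 F (x j) * b j

theorem pX_add [CharP F 2] (b : Fin κ → F) (x y : V2 κ) : pX b (x + y) = pX b x + pX b y := by
  unfold pX
  rw [← Finset.sum_add_distrib]
  refine Finset.sum_congr rfl fun j _ => ?_
  rw [Pi.add_apply, c2_add, add_mul]

theorem pX_zero (b : Fin κ → F) : pX b 0 = 0 := by
  simp [pX]

theorem pX_e (b : Fin κ → F) {j : ℕ} (hj : j < κ) : pX b (e κ j) = b ⟨j, hj⟩ := by
  unfold pX
  rw [Finset.sum_eq_single ⟨j, hj⟩]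
  · simp [e]
  · intro i _ hi
    have : (i : ℕ) ≠ j := fun h => hi (Fin.ext h)
    simp [e, this]
  · simp

/-- independent over the field with two elements -/
def Indep (b : Fin κ → F) : Prop := ∀ x : V2 κ, pX b x = 0 → x = 0

theorem pX_inj [CharP F 2] {b : Fin κ → F} (hb : Indep b) {x y : V2 κ}
    (h : pX b x = pX b y) : x = y := by
  have h1 : pX b (x + y) = 0 := by
    rw [pX_add, h, CharTwo.add_self_eq_zero]
  have h2 := hb _ h1
  funext j
  have h3 : x j + y j = 0 := congrFun h2 j
  rcases zmod2_cases (x j) with h4 | h4 <;> rcases zmod2_cases (y j) with h5 | h5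
  · rw [h4, h5]
  · rw [h4, h5] at h3
    exact absurd h3 (by decide)
  · rw [h4, h5] at h3
    exact absurd h3 (by decide)
  · rw [h4, h5]

/-- the family, extended by zero -/
def bb (b : Fin κ → F) (j : ℕ) : F := if h : j < κ then b ⟨j, h⟩ else 0

/-- the subspace polynomials -/
noncomputable def sp (b : Fin κ → F) : ℕ → F[X]
  | 0 => Polynomial.X
  | j + 1 => sp b j ^ 2 + C ((sp b j).eval (bb b j)) * sp b j

theorem sp_zero (b : Fin κ → F) : sp b 0 = Polynomial.X := rfl

theorem sp_succ_eval (b : Fin κ → F) (j : ℕ) (y : F) : (sp b (j + 1)).eval y =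
    (sp b j).eval y ^ 2 + (sp b j).eval (bb b j) * (sp b j).eval y := by
  rw [sp]
  simp

theorem sp_add [CharP F 2] (b : Fin κ → F) (j : ℕ) (y z : F) :
    (sp b j).eval (y + z) = (sp b j).eval y + (sp b j).eval z := by
  induction j with
  | zero => simp [sp_zero]
  | succ j ih =>
    rw [sp_succ_eval, sp_succ_eval, sp_succ_eval, ih, CharTwo.add_sq]
    ring

theorem sp_eval_zero (b : Fin κ → F) (j : ℕ) : (sp b j).eval 0 = 0 := by
  induction j with
  | zero => simp [sp_zero]
  | succ j ih => rw [sp_succ_eval, ih]; simp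

theorem sp_degree (b : Fin κ → F) (j : ℕ) : (sp b j).natDegree ≤ 2 ^ j := by
  induction j with
  | zero => simp [sp_zero]
  | succ j ih =>
    rw [sp]
    refine (natDegree_add_le _ _).trans (max_le ?_ ?_)
    · refine (natDegree_pow_le).trans ?_
      rw [pow_succ]
      omega
    · refine (natDegree_C_mul_le _ _).trans (ih.trans ?_)
      exact Nat.pow_le_pow_right (by norm_num) (by omega)

theorem sp_self [CharP F 2] (b : Fin κ → F) (j : ℕ) : (sp b (j + 1)).eval (bb b j) = 0 := by
  rw [sp_succ_eval, ← sq, CharTwo.add_self_eq_zero]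

theorem sp_low [CharP F 2] (b : Fin κ → F) {i j : ℕ} (h : i < j) :
    (sp b j).eval (bb b i) = 0 := by
  induction j with
  | zero => omega
  | succ j ih =>
    rcases Nat.lt_succ_iff_lt_or_eq.1 h with h1 | rfl
    · rw [sp_succ_eval, ih h1]
      simp
    · exact sp_self b i

/-- Zeros of the subspace polynomials. -/
theorem sp_root [CharP F 2] (b : Fin κ → F) {j : ℕ} (hj : j ≤ κ) {y : F}
    (h : (sp b j).eval y = 0) : ∃ x : V2 κ, (∀ i : Fin κ, j ≤ (i : ℕ) → x i = 0) ∧ pX b x = y := by
  induction j generalizing y with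
  | zero =>
    rw [sp_zero, eval_X] at h
    exact ⟨0, fun _ _ => rfl, by rw [pX_zero, h]⟩
  | succ j ih =>
    rw [sp_succ_eval] at h
    have h1 : (sp b j).eval y * ((sp b j).eval y + (sp b j).eval (bb b j)) = 0 := by
      rw [← h]
      ring
    rcases mul_eq_zero.1 h1 with h2 | h2
    · obtain ⟨x, hx1, hx2⟩ := ih (by omega) h2
      exact ⟨x, fun i hi => hx1 i (by omega), hx2⟩
    · rw [← sp_add] at h2
      obtain ⟨x, hx1, hx2⟩ := ih (by omega) h2
      refine ⟨x + e κ j, fun i hi => ?_, ?_⟩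
      · have : (i : ℕ) ≠ j := by omega
        simp [hx1 i (by omega), e, this]
      · rw [pX_add, hx2, pX_e b (by omega : j < κ)]
        simp only [bb, dif_pos (by omega : j < κ)]
        rw [add_assoc, CharTwo.add_self_eq_zero, add_zero]

theorem sp_ne [CharP F 2] {b : Fin κ → F} (hb : Indep b) {j : ℕ} (hj : j < κ) :
    (sp b j).eval (bb b j) ≠ 0 := by
  intro h
  obtain ⟨x, hx1, hx2⟩ := sp_root b hj.le h
  have h1 : pX b (x + e κ j) = 0 := by
    rw [pX_add, hx2, pX_e b hj]
    simp only [bb, dif_pos hj]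
    exact CharTwo.add_self_eq_zero _
  have h2 := congrFun (hb _ h1) ⟨j, hj⟩
  rw [Pi.add_apply, hx1 ⟨j, hj⟩ le_rfl] at h2
  simp [e] at h2

/-- normalised subspace polynomials on the points -/
noncomputable def ss (b : Fin κ → F) (j : ℕ) (x : V2 κ) : F :=
  (sp b j).eval (pX b x) * ((sp b j).eval (bb b j))⁻¹

/-- evaluation at the points -/
noncomputable def evp (b : Fin κ → F) : F[X] →ₗ[F] Ct κ F where
  toFun p := fun x => p.eval (pX b x)
  map_add' p q := by
    funext x
    simp
  map_smul' c p := by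
    funext x
    simp

@[simp] theorem evp_apply (b : Fin κ → F) (p : F[X]) (x : V2 κ) :
    evp b p x = p.eval (pX b x) := rfl

/-- evaluations of the polynomials of degree `< d` -/
noncomputable def RSd (b : Fin κ → F) (d : ℕ) : Submodule F (Ct κ F) :=
  (degreeLT F d).map (evp b)

theorem mem_RSd {b : Fin κ → F} {d : ℕ} {u : Ct κ F} :
    u ∈ RSd b d ↔ ∃ p : F[X], p.degree < d ∧ ∀ x, u x = p.eval (pX b x) := by
  constructor
  · rintro ⟨p, hp, rfl⟩
    exact ⟨p, mem_degreeLT.1 hp, fun x => rfl⟩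
  · rintro ⟨p, hp, h⟩
    exact ⟨p, mem_degreeLT.2 hp, by funext x; rw [h x]; rfl⟩

theorem degree_lt_of_natDegree {p : F[X]} {d : ℕ} (h : p.natDegree ≤ d) :
    p.degree < ((d + 1 : ℕ) : WithBot ℕ) :=
  lt_of_le_of_lt (degree_le_of_natDegree_le h) (by exact_mod_cast Nat.lt_succ_self d)

theorem natDegree_of_degree_lt {p : F[X]} {d : ℕ} (h : p.degree < ((d + 1 : ℕ) : WithBot ℕ)) :
    p.natDegree ≤ d := by
  by_cases hp : p = 0
  · simp [hp]
  · have := (natDegree_lt_iff_degree_lt hp).2 h
    omega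

/-- The Reed-Solomon system of an independent family. -/
noncomputable def rsys [CharP F 2] (b : Fin κ → F) (hb : Indep b) : RSys κ F where
  s := ss b
  RS := RSd b
  s_add j x y := by
    unfold ss
    rw [pX_add, sp_add, add_mul]
  s_self j hj := by
    unfold ss
    rw [pX_e b hj]
    have h1 : bb b j = b ⟨j, hj⟩ := by simp [bb, hj]
    rw [← h1]
    exact mul_inv_cancel₀ (sp_ne hb hj)
  s_low i j hij hj := by
    unfold ss
    have h1 : bb b i = b ⟨i, hij.trans hj⟩ := by simp [bb, hij.trans hj]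
    rw [pX_e b (hij.trans hj), ← h1, sp_low b hij, zero_mul]
  s_RS j hj := by
    rw [mem_RSd]
    refine ⟨C ((sp b j).eval (bb b j))⁻¹ * sp b j, ?_, fun x => ?_⟩
    · exact degree_lt_of_natDegree ((natDegree_C_mul_le _ _).trans (sp_degree b j))
    · simp [ss, mul_comm]
  one_RS := by
    rw [mem_RSd]
    refine ⟨1, degree_lt_of_natDegree (by simp), fun x => by simp⟩
  mono a c hac := Submodule.map_mono (degreeLT_mono hac)
  mul a c u v hu hv := by
    rw [mem_RSd] at *
    obtain ⟨p, hp, hp'⟩ := hu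
    obtain ⟨q, hq, hq'⟩ := hv
    refine ⟨p * q, ?_, fun x => by rw [eval_mul, hp', hq']⟩
    refine degree_lt_of_natDegree (natDegree_mul_le.trans ?_)
    have h1 := natDegree_of_degree_lt hp
    have h2 := natDegree_of_degree_lt hq
    omega
  zeros d u hu _ hne := by
    classical
    rw [mem_RSd] at hu
    obtain ⟨p, hp, hp'⟩ := hu
    have hp0 : p ≠ 0 := by
      rintro rfl
      exact hne (by funext x; rw [hp' x]; simp)
    have h1 : (univ.filter fun x => u x = 0).card ≤ p.roots.toFinset.card := by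
      refine Finset.card_le_card_of_injOn (pX b) ?_ ?_
      · intro x hx
        have hx' : u x = 0 := by simpa using hx
        rw [hp' x] at hx'
        simp only [Finset.mem_coe, Multiset.mem_toFinset]
        exact (mem_roots hp0).2 hx'
      · intro x _ y _ hxy
        exact pX_inj hb hxy
    have h2 : p.roots.toFinset.card ≤ p.natDegree :=
      (Multiset.toFinset_card_le _).trans (card_roots' p)
    have h3 : p.natDegree < d := (natDegree_lt_iff_degree_lt hp0).2 hp
    convert lt_of_le_of_lt (h1.trans h2) h3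

end Vale.Agent.P330.H657
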